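import Vale.Agent.P226.Fin
import Vale.Agent.P226.Main

namespace Vale.Agent.Results.P226.Propeller

open MeasureTheory Real

theorem result (d k : ℕ) (γ : Measure (EuclideanSpace ℝ (Fin d)))
    (hγ : γ = volume.withDensity fun x =>
      ENNReal.ofReal ((2 * π) ^ (-(d : ℝ) / 2) * exp (-‖x‖ ^ 2 / 2)))
    (A : Fin k → Set (EuclideanSpace ℝ (Fin d))) (hA : ∀ i, NullMeasurableSet (A i) γ)
    (hd : ∀ i j, i ≠ j → γ (A i ∩ A j) = 0) (hu : γ (⋃ i, A i)ᶜ = 0) :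
    ∑ i, ‖∫ x in A i, x ∂γ‖ ^ 2 ≤ 9 / (8 * π) :=
  Vale.Agent.P226.final_gam d k (fun _ _ _ h => Vale.Agent.P226.no_crit h) γ hγ A hA hd hu

end Vale.Agent.Results.P226.Propeller
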