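import Vale.Agent.P226.Sharp
import Vale.Agent.P226.Main

namespace Vale.Agent.Results.P226.Sharp

open MeasureTheory Real

theorem result (d k : ℕ) (γ : Measure (EuclideanSpace ℝ (Fin d)))
    (hγ : γ = volume.withDensity fun x =>
      ENNReal.ofReal ((2 * π) ^ (-(d : ℝ) / 2) * exp (-‖x‖ ^ 2 / 2)))
    (S : Set ℝ)
    (hS : S = {s | ∃ A : Fin k → Set (EuclideanSpace ℝ (Fin d)), (∀ i, NullMeasurableSet (A i) γ) ∧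
      (∀ i j, i ≠ j → γ (A i ∩ A j) = 0) ∧ γ (⋃ i, A i)ᶜ = 0 ∧ s = ∑ i, ‖∫ x in A i, x ∂γ‖ ^ 2}) :
    (∀ s ∈ S, s ≤ 9 / (8 * π)) ∧ (2 ≤ d → 3 ≤ k → IsGreatest S (9 / (8 * π))) := by
  have h : ∀ s ∈ S, s ≤ 9 / (8 * π) := by
    subst hS
    rintro _ ⟨A, hA, hd, hu, rfl⟩
    exact Vale.Agent.P226.final_gam d k (fun _ _ _ h => Vale.Agent.P226.no_crit h) γ hγ A hA hd hu
  refine ⟨h, fun hd hk => ⟨?_, h⟩⟩
  obtain ⟨A, h1, h2, h3, h4⟩ := Vale.Agent.P226.sharp_gam hd hk γ hγ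
  have hm : ∑ i, ‖∫ x in A i, x ∂γ‖ ^ 2 ∈ S :=
    hS ▸ ⟨A, fun i => (h1 i).nullMeasurableSet, h2, h3, rfl⟩
  exact le_antisymm (h _ hm) h4 ▸ hm

end Vale.Agent.Results.P226.Sharp
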